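import Vale.Agent.P167.N.Kit
import Vale.Agent.P167.H199.QGrid

/-! Port of Vale.Agent.P167.H199.QGrid, `q < 1`: the constant `4` is replaced by `Kf θ`. -/

set_option autoImplicit false

set_option linter.unusedSimpArgs false

namespace Vale.Agent.P167.N.H199

open Vale.Agent.P167.H199

open Finset Filter Topology MeasureTheory

open Vale.Agent.P167.A (Grid plane torus red redE plane_nx plane_hd plane_sg)

open Vale.Agent.P167.H685

open Vale.Agent.P167.K8 (fc fc_zero cos4 cosm4 fc_le_two nx_congr_grid turn_congr_grid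
  fc_congr exists_two_heads)

open Vale.Agent.P167.FK (cf eta0 LD Good Ex Bq Zq)

open Vale.Agent.P152 (Edge Ori vw wt)

theorem one_le_Q {θ : ℝ} (_h0 : 0 ≤ θ) (h1 : Ang θ) : Kit (2 * Real.cos θ) := h1.kit

/-- The constant of the finite energy estimate (`4` for `q ≥ 1`). -/
noncomputable def Kf (θ : ℝ) : ℝ := 4 / (2 * Real.cos θ) ^ 2

theorem Kf_mul {θ : ℝ} (h1 : Ang θ) : Kf θ * (2 * Real.cos θ) ^ 2 = 4 := by
  have := h1.kit.pos
  unfold Kf
  exact div_mul_cancel₀ _ (pow_pos this 2).ne'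

theorem Kf_pos {θ : ℝ} (h1 : Ang θ) : 0 < Kf θ := by
  have := h1.kit.pos
  unfold Kf
  positivity

theorem one_le_Kf {θ : ℝ} (h1 : Ang θ) : 1 ≤ Kf θ := by
  have h2 := h1.kit.pos
  have h3 := h1.kit.lt
  have h4 := Kf_mul h1
  have h5 := Kf_pos h1
  nlinarith

namespace Cov
open Vale.Agent.P167.H199.Cov

variable {V : Type} {g : Grid V} {r : ℤ × ℤ → V} {m : ℕ} (h : Cov g r m)
  [Fintype V] [DecidableEq V]

include h

theorem fcq_ge {θ : ℝ} (h1 : Ang θ) (ρ : V → Bool)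
    {O : Finset (Edge V)} (hO : O ∈ orbs (g.nxP ρ)) : 2 * Real.cos θ ≤ fc θ g 0 ρ O := by
  have h1_lt := h1.kit.lt
  rcases h.fcq_cases θ ρ hO with h | h
  · rw [h]
  · rw [h]
    linarith

theorem fcq_pos {θ : ℝ} (h1 : Ang θ) (ρ : V → Bool)
    {O : Finset (Edge V)} (hO : O ∈ orbs (g.nxP ρ)) : 0 < fc θ g 0 ρ O :=
  h1.kit.pos.trans_le (Vale.Agent.P167.N.H199.Cov.fcq_ge h h1 ρ hO)

theorem wG_pos {θ : ℝ} (_h0 : 0 ≤ θ) (h1 : Ang θ) (ρ : V → Bool) :
    0 < wG θ g ρ := prod_pos fun _ hℓ => Vale.Agent.P167.N.H199.Cov.fcq_pos h h1 ρ hℓ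

theorem sum_wG_pos {θ : ℝ} (h0 : 0 ≤ θ) (h1 : Ang θ) :
    0 < ∑ ρ : V → Bool, wG θ g ρ := sum_pos (fun ρ _ => (Vale.Agent.P167.N.H199.Cov.wG_pos h) h0 h1 ρ) univ_nonempty

/-- Finite energy. -/
theorem flip {θ : ℝ} (_h0 : 0 ≤ θ) (h1 : Ang θ) (ρ : V → Bool) (v : V) (b : Bool) :
    wG θ g (Function.update ρ v b) ≤ Kf θ * wG θ g ρ := by
  have h1_lt := h1.kit.lt
  have h1_pos := h1.kit.pos
  have hag : ∀ u, u ∉ ({v} : Finset V) → Function.update ρ v b u = ρ u := by
    intro u hu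
    rw [mem_singleton] at hu
    exact Function.update_of_ne hu _ _
  have hN := orbs_congrG g (A := {v}) hag
  unfold wG
  rw [← prod_filter_mul_prod_filter_not (orbs (g.nxP (Function.update ρ v b)))
    (fun O => ∀ e ∈ O, g.hd e ∉ ({v} : Finset _)),
    ← prod_filter_mul_prod_filter_not (orbs (g.nxP ρ))
    (fun O => ∀ e ∈ O, g.hd e ∉ ({v} : Finset _)), hN]
  have e1 : ∏ O ∈ (orbs (g.nxP ρ)).filter (fun O => ∀ e ∈ O, g.hd e ∉ ({v} : Finset _)),
        fc θ g 0 (Function.update ρ v b) O =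
      ∏ O ∈ (orbs (g.nxP ρ)).filter (fun O => ∀ e ∈ O, g.hd e ∉ ({v} : Finset _)),
        fc θ g 0 ρ O := by
    refine prod_congr rfl fun O hO => fc_congr θ _ fun e he => ?_
    exact hag _ ((mem_filter.1 hO).2 e he)
  rw [e1]
  have hpos : 0 ≤ ∏ O ∈ (orbs (g.nxP ρ)).filter (fun O => ∀ e ∈ O, g.hd e ∉ ({v} : Finset _)),
        fc θ g 0 ρ O :=
    prod_nonneg fun O hO => (Vale.Agent.P167.N.H199.Cov.fcq_pos h h1 ρ (mem_filter.1 hO).1).le
  have hup : ∏ O ∈ (orbs (g.nxP (Function.update ρ v b))).filter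
        (fun O => ¬ ∀ e ∈ O, g.hd e ∉ ({v} : Finset _)),
        fc θ g 0 (Function.update ρ v b) O ≤ 4 := by
    calc _ ≤ ∏ O ∈ (orbs (g.nxP (Function.update ρ v b))).filter
          (fun O => ¬ ∀ e ∈ O, g.hd e ∉ ({v} : Finset _)), (2 : ℝ) :=
          prod_le_prod (fun O hO =>
            (Vale.Agent.P167.N.H199.Cov.fcq_pos h h1 _ (mem_filter.1 hO).1).le)
            fun O _ => fc_le_two θ _ _ _ _
      _ = 2 ^ _ := prod_const _
      _ ≤ 2 ^ 2 := pow_le_pow_right₀ (by norm_num) (card_orbs_atG g _ v)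
      _ = 4 := by norm_num
  have hlo : (2 * Real.cos θ) ^ 2 ≤ ∏ O ∈ (orbs (g.nxP ρ)).filter
        (fun O => ¬ ∀ e ∈ O, g.hd e ∉ ({v} : Finset _)), fc θ g 0 ρ O := by
    calc (2 * Real.cos θ) ^ 2 ≤ (2 * Real.cos θ) ^ ((orbs (g.nxP ρ)).filter
          (fun O => ¬ ∀ e ∈ O, g.hd e ∉ ({v} : Finset _))).card :=
          pow_le_pow_of_le_one h1_pos.le h1_lt.le (card_orbs_atG g _ v)
      _ = ∏ O ∈ (orbs (g.nxP ρ)).filter
          (fun O => ¬ ∀ e ∈ O, g.hd e ∉ ({v} : Finset _)), (2 * Real.cos θ) := by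
          rw [prod_const]
      _ ≤ _ := prod_le_prod (fun _ _ => h1_pos.le)
          fun O hO => Vale.Agent.P167.N.H199.Cov.fcq_ge h h1 ρ (mem_filter.1 hO).1
  have hK := Kf_mul h1
  have hKp := Kf_pos h1
  calc _ ≤ (∏ O ∈ (orbs (g.nxP ρ)).filter
        (fun O => ∀ e ∈ O, g.hd e ∉ ({v} : Finset _)), fc θ g 0 ρ O) * 4 :=
        mul_le_mul_of_nonneg_left hup hpos
    _ = Kf θ * ((∏ O ∈ (orbs (g.nxP ρ)).filter
        (fun O => ∀ e ∈ O, g.hd e ∉ ({v} : Finset _)), fc θ g 0 ρ O) *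
          (2 * Real.cos θ) ^ 2) := by rw [← hK]; ring
    _ ≤ _ := mul_le_mul_of_nonneg_left (mul_le_mul_of_nonneg_left hlo hpos) hKp.le

/-- Closing the squares of `T`. -/
theorem close {θ : ℝ} (h0 : 0 ≤ θ) (h1 : Ang θ) (T : Finset V) (ρ : V → Bool) :
    wG θ g (fun x => if x ∈ T then false else ρ x) ≤ Kf θ ^ T.card * wG θ g ρ ∧
    wG θ g ρ ≤ Kf θ ^ T.card * wG θ g (fun x => if x ∈ T then false else ρ x) := by
  have hKp := Kf_pos h1
  classical
  induction T using Finset.induction_on with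
  | empty => simp
  | insert a T ha ih =>
    have e1 : (fun x => if x ∈ insert a T then false else ρ x)
        = Function.update (fun x => if x ∈ T then false else ρ x) a false := by
      funext x
      by_cases hx : x = a
      · subst hx; simp
      · simp [hx]
    have e2 : (fun x => if x ∈ T then false else ρ x)
        = Function.update (fun x => if x ∈ insert a T then false else ρ x) a (ρ a) := by
      funext x
      by_cases hx : x = a
      · subst hx; simp [ha]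
      · simp [hx]
    rw [card_insert_of_notMem ha, pow_succ]
    constructor
    · rw [e1]
      refine ((Vale.Agent.P167.N.H199.Cov.flip h) h0 h1 _ a false).trans ?_
      calc Kf θ * wG θ g (fun x => if x ∈ T then false else ρ x)
          ≤ Kf θ * (Kf θ ^ T.card * wG θ g ρ) := mul_le_mul_of_nonneg_left ih.1 hKp.le
        _ = _ := by ring
    · refine ih.2.trans ?_
      have h2 := (Vale.Agent.P167.N.H199.Cov.flip h) h0 h1 (fun x => if x ∈ insert a T then false else ρ x) a (ρ a)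
      rw [← e2] at h2
      calc Kf θ ^ T.card * wG θ g (fun x => if x ∈ T then false else ρ x)
          ≤ Kf θ ^ T.card * (Kf θ * wG θ g (fun x => if x ∈ insert a T then false else ρ x)) :=
            mul_le_mul_of_nonneg_left h2 (by positivity)
        _ = _ := by ring

end Cov



end Vale.Agent.P167.N.H199
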