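import Vale.Agent.P167.N.Kit
import Vale.Agent.P167.N.H199.QGrid
import Vale.Agent.P167.H199.QBox

/-! generated from Vale.Agent.P167.H199.QBox (q < 1 port) -/

set_option autoImplicit false

set_option linter.unusedSimpArgs false

set_option linter.unusedSectionVars false

namespace Vale.Agent.P167.N.H199

open Vale.Agent.P167.H199

open Finset Filter Topology MeasureTheory

open Vale.Agent.P167.A (Grid plane torus red redE plane_nx plane_hd plane_sg in1 in2 in_hd hd_in1
  hd_in2)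

open Vale.Agent.P167.H685

open Vale.Agent.P167.K8 (fc fc_zero cos4 cosm4 fc_le_two nx_congr_grid turn_congr_grid
  fc_congr exists_two_heads)

open Vale.Agent.P167.FK (cf eta0 LD Good Ex Bq Zq)

open Vale.Agent.P152 (Edge Ori vw wt)

namespace Cov
open Vale.Agent.P167.H199.Cov

variable {V : Type} {g : Grid V} {r : ℤ × ℤ → V} {m : ℕ} (h : Cov g r m)

include h

variable [Fintype V] [DecidableEq V]

end Cov

section sums

variable {V : Type} [Fintype V] [DecidableEq V] {r : ℤ × ℤ → V} {M : ℕ}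

end sums

namespace Cov
open Vale.Agent.P167.H199.Cov

variable {V : Type} {g : Grid V} {r : ℤ × ℤ → V} {m : ℕ} (h : Cov g r m)
  [Fintype V] [DecidableEq V]

include h

/-- **The box is free.** -/
theorem sum_clr {M : ℕ} [NeZero M] (hm : 2 * (M + 1) + 1 ≤ m) {θ : ℝ} (h0 : 0 ≤ θ)
    (h1 : Ang θ) (H : Cfg → ℝ) :
    ∑ ρ : V → Bool, wG θ g (clr r M ρ) * H (pc M (So r M ρ)) =
      (∑ ρ : V → Bool, wG θ g (clr r M ρ)) * Ex (2 * Real.cos θ) (Dd M M) eta0 H := by
  have h1_lt := h1.lt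
  classical
  have hQ : 0 < 2 * Real.cos θ := h1.kit.pos
  have hZ := FKA.Zq_pos hQ (Dd M M) eta0
  rw [sum_split (M := M) (h.injD hm) (fun ρ => wG θ g (clr r M ρ) * H (pc M (So r M ρ))),
    sum_split (M := M) (h.injD hm) (fun ρ => wG θ g (clr r M ρ)), sum_mul]
  refine sum_congr rfl fun β _ => ?_
  have e1 : ∀ S ∈ (Dd M M).powerset, wG θ g (clr r M (gl r M β S)) *
      H (pc M (So r M (gl r M β S))) =
      (∏ O ∈ (orbs (g.nxP (clr r M β))).filter (fun O => ∀ e ∈ O, g.hd e ∉ (Dd M M).image r),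
        fc θ g 0 (clr r M β) O) * ((2 * Real.cos θ) ^ LD (Dd M M) (pc M S) * H (pc M S)) := by
    intro S hS
    rw [mem_powerset] at hS
    rw [h.wG_gl hm θ β hS, So_gl (h.injD hm) β hS]
    ring
  have e2 : ∀ S ∈ (Dd M M).powerset, wG θ g (clr r M (gl r M β S)) =
      (∏ O ∈ (orbs (g.nxP (clr r M β))).filter (fun O => ∀ e ∈ O, g.hd e ∉ (Dd M M).image r),
        fc θ g 0 (clr r M β) O) * (2 * Real.cos θ) ^ LD (Dd M M) (pc M S) := by
    intro S hS
    rw [mem_powerset] at hS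
    rw [h.wG_gl hm θ β hS]
    ring
  rw [sum_congr rfl e1, sum_congr rfl e2, ← mul_sum, ← mul_sum]
  have e3 : Ex (2 * Real.cos θ) (Dd M M) eta0 H =
      (∑ S ∈ (Dd M M).powerset, (2 * Real.cos θ) ^ LD (Dd M M) (pc M S) * H (pc M S)) /
        Zq (2 * Real.cos θ) (Dd M M) eta0 := rfl
  have e4 : ∑ S ∈ (Dd M M).powerset, (2 * Real.cos θ) ^ LD (Dd M M) (pc M S) =
      Zq (2 * Real.cos θ) (Dd M M) eta0 := rfl
  rw [e3, e4]
  field_simp

end Cov

end Vale.Agent.P167.N.H199
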