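import Vale.Agent.P167.N.Kit
import Vale.Agent.P167.N.H199.QGrid
import Vale.Agent.P167.N.H199.QLoc
import Vale.Agent.P167.H199.QPlane

/-! generated from Vale.Agent.P167.H199.QPlane (q < 1 port) -/

set_option autoImplicit false

set_option linter.unusedSimpArgs false

set_option linter.unusedSectionVars false

namespace Vale.Agent.P167.N.H199

open Vale.Agent.P167.H199

open Finset Filter Topology MeasureTheory

open Vale.Agent.P167.A (Grid plane torus red redE plane_nx plane_hd plane_sg)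

open Vale.Agent.P167.H685

open Vale.Agent.P167.K8 (fc fc_zero cos4 cosm4 fc_le_two)

open Vale.Agent.P167.FK (cf eta0 LD Good Ex Bq Zq)

open Vale.Agent.P167.H519 (IsLim)

open Vale.Agent.P152 (Edge Ori vw wt)

theorem two_le_inv {θ : ℝ} (h1 : Ang θ) : 2 ≤ 1 / Real.cos θ := by
  have h2 := h1.kit.lt
  have h3 := h1.cos_pos
  rw [le_div_iff₀ h3]
  linarith

theorem abs_XcQ_le {θ : ℝ} (_h0 : 0 ≤ θ) (h1 : Ang θ) (ω : Cfg) {S E : Finset Ed}
    (hSE : S ⊆ E) {a : Ed → Bool → ℝ} (ha : ∀ e ∉ E, ∀ b, a e b = 0) :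
    |XcQ θ S a ω| ≤ (1 / Real.cos θ) ^ (E.card + S.card) := by
  classical
  have hQ := h1.kit.lt
  have hQ0 : 0 < 2 * Real.cos θ := h1.kit.pos
  have hcp : 0 < Real.cos θ := h1.cos_pos
  have h2c := two_le_inv h1
  have hc1 : 1 ≤ 1 / Real.cos θ := by linarith
  rw [XcQ_eq hcp.ne' ω hSE ha, abs_mul, abs_mul, abs_prod, abs_prod, pow_add]
  refine mul_le_mul ?_ ?_ (prod_nonneg fun _ _ => abs_nonneg _) (by positivity)
  · have e1 : ∏ ℓ ∈ (LE ω E).filter (fun ℓ => Disjoint ℓ S),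
          |2 * Real.cos (cang plane θ a ω ℓ) / (2 * Real.cos θ)| ≤
          (1 / Real.cos θ) ^ ((LE ω E).filter (fun ℓ => Disjoint ℓ S)).card := by
      calc ∏ ℓ ∈ (LE ω E).filter (fun ℓ => Disjoint ℓ S),
            |2 * Real.cos (cang plane θ a ω ℓ) / (2 * Real.cos θ)|
          ≤ ∏ _ℓ ∈ (LE ω E).filter (fun ℓ => Disjoint ℓ S), (1 / Real.cos θ) := by
            refine prod_le_prod (fun _ _ => abs_nonneg _) fun ℓ _ => ?_
            rw [abs_div, abs_of_pos hQ0, div_le_iff₀ hQ0]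
            have := abs_two_cos (cang plane θ a ω ℓ)
            have e : 1 / Real.cos θ * (2 * Real.cos θ) = 2 := by
              field_simp
            linarith
        _ = (1 / Real.cos θ) ^ ((LE ω E).filter (fun ℓ => Disjoint ℓ S)).card := by
            rw [prod_const]
    have e2 : |(2 * Real.cos θ)⁻¹ ^ ((LE ω E).filter fun ℓ => ¬ Disjoint ℓ S).card| ≤
        (1 / Real.cos θ) ^ ((LE ω E).filter (fun ℓ => ¬ Disjoint ℓ S)).card := by
      rw [abs_pow, abs_of_pos (inv_pos.2 hQ0)]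
      refine pow_le_pow_left₀ (inv_pos.2 hQ0).le ?_ _
      rw [one_div]
      exact inv_anti₀ hcp (by linarith)
    calc _ ≤ (1 / Real.cos θ) ^ ((LE ω E).filter (fun ℓ => Disjoint ℓ S)).card *
          (1 / Real.cos θ) ^ ((LE ω E).filter (fun ℓ => ¬ Disjoint ℓ S)).card :=
          mul_le_mul e1 e2 (abs_nonneg _) (by positivity)
      _ = (1 / Real.cos θ) ^ (LE ω E).card := by
          rw [← pow_add, card_filter_add_card_filter_not]
      _ ≤ _ := pow_le_pow_right₀ hc1 (card_LE_le ω E)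
  · calc ∏ e ∈ S, |2 * Real.cos (cang plane θ a ω (strand (nx ω) S e))|
        ≤ ∏ _e ∈ S, (1 / Real.cos θ) := prod_le_prod (fun _ _ => abs_nonneg _) fun _ _ =>
          (abs_two_cos _).trans h2c
      _ = (1 / Real.cos θ) ^ S.card := by rw [prod_const]

namespace Cov
open Vale.Agent.P167.H199.Cov

variable {V : Type} {g : Grid V} {r : ℤ × ℤ → V} {m : ℕ} (h : Cov g r m)
  [Fintype V] [DecidableEq V]

include h

/-- Bound of the cut product. -/
theorem abs_cutPrQ_le {θ : ℝ} (_h0 : 0 ≤ θ) (h1 : Ang θ) (ρ : V → Bool)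
    {a : Edge V → Bool → ℝ} {E : Finset (Edge V)}
    (ha : ∀ e ∉ E, ∀ b, a e b = 0) (S : Finset (Edge V)) :
    |cutPr g θ S a ρ| ≤ (1 / Real.cos θ) ^ (E.card + S.card) * wG θ g ρ := by
  classical
  have hQ := h1.kit.lt
  have hQ0 : 0 < 2 * Real.cos θ := h1.kit.pos
  have hcp : 0 < Real.cos θ := h1.cos_pos
  have h2c := two_le_inv h1
  have hc1 : 1 ≤ 1 / Real.cos θ := by linarith
  have h1' : ∀ ℓ ∈ orbs (g.nxP ρ), 2 * Real.cos θ ≤ fc θ g 0 ρ ℓ := fun ℓ hℓ =>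
    Vale.Agent.P167.N.H199.Cov.fcq_ge h h1 ρ hℓ
  have hnn : ∀ ℓ ∈ orbs (g.nxP ρ), 0 ≤ fc θ g 0 ρ ℓ := fun ℓ hℓ => by linarith [h1' ℓ hℓ]
  have hclosed : ∀ ℓ ∈ orbs (g.nxP ρ), ∀ x ∈ ℓ, g.nx ρ x ∈ ℓ := by
    intro ℓ hℓ x hx
    rw [eq_orb_of_mem hℓ hx, mem_orb]
    exact ⟨1, rfl⟩
  have h2 : ∀ ℓ ∈ (orbs (g.nxP ρ)).filter (fun ℓ => Disjoint ℓ S),
      |2 * Real.cos (cang g θ a ρ ℓ)| ≤
      (if ∃ e ∈ E, e ∈ ℓ then (1 / Real.cos θ) else 1) * fc θ g 0 ρ ℓ := by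
    intro ℓ hℓ
    rw [Finset.mem_filter] at hℓ
    split_ifs with h
    · have k1 := abs_two_cos (cang g θ a ρ ℓ)
      have k2 := h1' ℓ hℓ.1
      have e : 1 / Real.cos θ * (2 * Real.cos θ) = 2 := by
        field_simp
      have k3 : 1 / Real.cos θ * (2 * Real.cos θ) ≤ 1 / Real.cos θ * fc θ g 0 ρ ℓ :=
        mul_le_mul_of_nonneg_left k2 (by linarith)
      linarith
    · rw [cang_off g a ρ (hclosed ℓ hℓ.1) (fun x hx b => ha x (fun hE => h ⟨x, hE, hx⟩) b),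
        ← fc_zero, one_mul, abs_of_nonneg (hnn ℓ hℓ.1)]
  have hcardS : ((orbs (g.nxP ρ)).filter (fun ℓ => ¬ Disjoint ℓ S)).card ≤ S.card := by
    refine (card_le_card ?_).trans (card_orbs_meet_le (σ := g.nxP ρ) S)
    intro ℓ hℓ
    rw [Finset.mem_filter] at hℓ ⊢
    refine ⟨hℓ.1, ?_⟩
    obtain ⟨e, he, he'⟩ := Finset.not_disjoint_iff.1 hℓ.2
    exact ⟨e, he', he⟩
  have hA : ∏ ℓ ∈ (orbs (g.nxP ρ)).filter (fun ℓ => Disjoint ℓ S),
      |2 * Real.cos (cang g θ a ρ ℓ)| ≤ (1 / Real.cos θ) ^ E.card *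
        ∏ ℓ ∈ (orbs (g.nxP ρ)).filter (fun ℓ => Disjoint ℓ S), fc θ g 0 ρ ℓ := by
    refine (prod_le_prod (fun ℓ _ => abs_nonneg _) h2).trans ?_
    rw [prod_mul_distrib]
    refine mul_le_mul_of_nonneg_right ?_
      (prod_nonneg fun ℓ hℓ => hnn ℓ (Finset.mem_filter.1 hℓ).1)
    rw [prod_ite, prod_const, prod_const_one, mul_one]
    refine pow_le_pow_right₀ hc1 ((card_le_card ?_).trans
      (card_orbs_meet_le (σ := g.nxP ρ) E))
    intro ℓ hℓ
    rw [Finset.mem_filter] at hℓ ⊢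
    exact ⟨(Finset.mem_filter.1 hℓ.1).1, hℓ.2⟩
  have hB : ∏ e ∈ S, |2 * Real.cos (cang g θ a ρ (strand (g.nx ρ) S e))| ≤ 2 ^ S.card := by
    calc ∏ e ∈ S, |2 * Real.cos (cang g θ a ρ (strand (g.nx ρ) S e))|
        ≤ ∏ _e ∈ S, (2 : ℝ) := prod_le_prod (fun _ _ => abs_nonneg _) fun _ _ => abs_two_cos _
      _ = 2 ^ S.card := by rw [prod_const]
  have hC : (2 : ℝ) ^ S.card ≤ (1 / Real.cos θ) ^ S.card *
      ∏ ℓ ∈ (orbs (g.nxP ρ)).filter (fun ℓ => ¬ Disjoint ℓ S), fc θ g 0 ρ ℓ := by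
    have e : 1 / Real.cos θ * (2 * Real.cos θ) = 2 := by
      field_simp
    calc (2 : ℝ) ^ S.card = (1 / Real.cos θ) ^ S.card * (2 * Real.cos θ) ^ S.card := by
          rw [← mul_pow, e]
      _ ≤ (1 / Real.cos θ) ^ S.card * (2 * Real.cos θ) ^
          ((orbs (g.nxP ρ)).filter (fun ℓ => ¬ Disjoint ℓ S)).card :=
          mul_le_mul_of_nonneg_left (pow_le_pow_of_le_one hQ0.le hQ.le hcardS) (by positivity)
      _ = (1 / Real.cos θ) ^ S.card * ∏ _ℓ ∈ (orbs (g.nxP ρ)).filter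
          (fun ℓ => ¬ Disjoint ℓ S), (2 * Real.cos θ) := by rw [prod_const]
      _ ≤ _ := mul_le_mul_of_nonneg_left (prod_le_prod (fun _ _ => hQ0.le)
            fun ℓ hℓ => h1' ℓ (Finset.mem_filter.1 hℓ).1) (by positivity)
  unfold cutPr
  rw [abs_mul, abs_prod, abs_prod, pow_add]
  have hD : 0 ≤ ∏ ℓ ∈ (orbs (g.nxP ρ)).filter (fun ℓ => Disjoint ℓ S), fc θ g 0 ρ ℓ :=
    prod_nonneg fun ℓ hℓ => hnn ℓ (Finset.mem_filter.1 hℓ).1
  calc _ ≤ ((1 / Real.cos θ) ^ E.card *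
        ∏ ℓ ∈ (orbs (g.nxP ρ)).filter (fun ℓ => Disjoint ℓ S), fc θ g 0 ρ ℓ) *
        ((1 / Real.cos θ) ^ S.card *
      ∏ ℓ ∈ (orbs (g.nxP ρ)).filter (fun ℓ => ¬ Disjoint ℓ S), fc θ g 0 ρ ℓ) :=
        mul_le_mul hA (hB.trans hC) (prod_nonneg fun _ _ => abs_nonneg _)
          (mul_nonneg (by positivity) hD)
    _ = _ := by
        unfold wG
        rw [← prod_filter_mul_prod_filter_not (orbs (g.nxP ρ)) (fun ℓ => Disjoint ℓ S)]
        ring

end Cov

/-- **Transfer**, for all finite quotients. -/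
theorem transferQ {θ : ℝ} (h0 : 0 ≤ θ) (h1 : Ang θ) {P : Measure Cfg}
    (hP : IsLim (2 * Real.cos θ) P) {X : (ℤ × ℤ → Bool) → ℝ} {D : ℝ} (hXD : ∀ R, |X R| ≤ D)
    {G : ℕ → Set (ℤ × ℤ → Bool)}
    (hG : ∀ K, Dep (fun R => R ∈ G K) (bx K : Set (ℤ × ℤ)))
    (hGX : ∀ K, ∀ R ∈ G K, ∀ R' ∈ G K, (∀ v ∈ bx K, R v = R' v) → X R = X R')
    (hGae : ∀ᵐ R ∂P, ∀ᶠ K in atTop, R ∈ G K) :
    ∀ ε > 0, ∃ m0 : ℕ, ∀ (V : Type) [AddCommGroup V] [Fintype V] [DecidableEq V] (g : Grid V)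
      (r : ℤ × ℤ → V) (m : ℕ), GCov g r m → m0 ≤ m → ∀ Φ : (V → Bool) → ℝ,
      (∀ R, |Φ R| ≤ D * wG θ g R) →
      (∀ K : ℕ, 2 * (K + 1) + 1 ≤ m → ∀ R : V → Bool, R ∘ r ∈ G K →
        Φ R = wG θ g R * X (R ∘ r)) →
      |(∑ R, Φ R) / (∑ R, wG θ g R) - ∫ R, X R ∂P| ≤ ε := by
  have h1_lt := h1.lt
  classical
  have hPp : IsProbabilityMeasure P := hP.1
  have hD : 0 ≤ D := le_trans (abs_nonneg _) (hXD fun _ => true)
  set FX : ℕ → (ℤ × ℤ → Bool) → ℝ := fun K => (G K).indicator X with hFX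
  set F1 : ℕ → (ℤ × ℤ → Bool) → ℝ := fun K => (G K).indicator 1 with hF1
  have hdepF1 : ∀ K, Dep (F1 K) (bx K : Set (ℤ × ℤ)) := by
    intro K R R' h
    have : (R ∈ G K) = (R' ∈ G K) := hG K R R' h
    by_cases hR : R ∈ G K
    · simp only [hF1]
      rw [Set.indicator_of_mem hR, Set.indicator_of_mem (this ▸ hR)]; rfl
    · simp only [hF1]
      rw [Set.indicator_of_notMem hR, Set.indicator_of_notMem (this ▸ hR)]
  have hdepFX : ∀ K, Dep (FX K) (bx K : Set (ℤ × ℤ)) := by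
    intro K R R' h
    have : (R ∈ G K) = (R' ∈ G K) := hG K R R' h
    by_cases hR : R ∈ G K
    · have hR' : R' ∈ G K := this ▸ hR
      simp only [hFX]
      rw [Set.indicator_of_mem hR, Set.indicator_of_mem hR']
      exact hGX K R hR R' hR' h
    · simp only [hFX]
      rw [Set.indicator_of_notMem hR, Set.indicator_of_notMem (this ▸ hR)]
  have hbX : ∀ K R, |FX K R| ≤ D := by
    intro K R
    by_cases hR : R ∈ G K
    · simp only [hFX]
      rw [Set.indicator_of_mem hR]; exact hXD R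
    · simp only [hFX]
      rw [Set.indicator_of_notMem hR, abs_zero]; exact hD
  have hb1 : ∀ K R, |F1 K R| ≤ 1 := by
    intro K R
    by_cases hR : R ∈ G K
    · simp only [hF1]
      rw [Set.indicator_of_mem hR]; simp
    · simp only [hF1]
      rw [Set.indicator_of_notMem hR]; simp
  have hmX : ∀ K, Measurable (FX K) := fun K => (hdepFX K).measurable
  have hm1 : ∀ K, Measurable (F1 K) := fun K => (hdepF1 K).measurable
  have limX : Tendsto (fun K => ∫ R, FX K R ∂P) atTop (𝓝 (∫ R, X R ∂P)) := by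
    refine tendsto_integral_of_dominated_convergence (fun _ => D)
      (fun K => (hmX K).aestronglyMeasurable) (integrable_const D)
      (fun K => Eventually.of_forall fun R => hbX K R) ?_
    filter_upwards [hGae] with R hR
    refine tendsto_const_nhds.congr' ?_
    filter_upwards [hR] with K hK
    simp only [hFX]
    rw [Set.indicator_of_mem hK]
  have lim1 : Tendsto (fun K => ∫ R, F1 K R ∂P) atTop (𝓝 1) := by
    have : (1 : ℝ) = ∫ _R : ℤ × ℤ → Bool, (1 : ℝ) ∂P := by simp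
    rw [this]
    refine tendsto_integral_of_dominated_convergence (fun _ => 1)
      (fun K => (hm1 K).aestronglyMeasurable) (integrable_const 1)
      (fun K => Eventually.of_forall fun R => hb1 K R) ?_
    filter_upwards [hGae] with R hR
    refine tendsto_const_nhds.congr' ?_
    filter_upwards [hR] with K hK
    simp only [hF1]
    rw [Set.indicator_of_mem hK]; rfl
  intro ε hε
  set η : ℝ := ε / (4 * (D + 1)) with hη
  have hη0 : 0 < η := by positivity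
  have hDη : D * η ≤ ε / 4 := by
    rw [hη]
    have : D * (ε / (4 * (D + 1))) = ε / 4 * (D / (D + 1)) := by
      field_simp
    rw [this]
    have h2 : D / (D + 1) ≤ 1 := by
      rw [div_le_one (by linarith)]; linarith
    calc ε / 4 * (D / (D + 1)) ≤ ε / 4 * 1 := by gcongr
      _ = ε / 4 := mul_one _
  have hη1 : η ≤ ε / 4 := by
    rw [hη]
    apply div_le_div_of_nonneg_left hε.le (by norm_num)
    linarith
  obtain ⟨K, hK1, hK2⟩ : ∃ K, |∫ R, FX K R ∂P - ∫ R, X R ∂P| ≤ η ∧ 1 - ∫ R, F1 K R ∂P ≤ η := by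
    obtain ⟨K1, hK1⟩ := (Metric.tendsto_atTop.1 limX) η hη0
    obtain ⟨K2, hK2⟩ := (Metric.tendsto_atTop.1 lim1) η hη0
    refine ⟨max K1 K2, ?_, ?_⟩
    · have := hK1 (max K1 K2) (le_max_left _ _)
      rw [Real.dist_eq] at this
      exact this.le
    · have := hK2 (max K1 K2) (le_max_right _ _)
      rw [Real.dist_eq] at this
      linarith [(abs_lt.1 this).1]
  obtain ⟨N₃, hN₃⟩ := loc_lim h0 h1 hP (hdepFX K) (D := D) (hbX K) hη0
  obtain ⟨N₄, hN₄⟩ := loc_lim h0 h1 hP (hdepF1 K) (D := 1) (hb1 K) hη0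
  refine ⟨max (2 * (K + 1) + 1) (max N₃ N₄), fun V _ _ _ g r m h hm Φ hΦD hΦ => ?_⟩
  have m1 : 2 * (K + 1) + 1 ≤ m := le_trans (le_max_left _ _) hm
  have m3 : N₃ ≤ m := le_trans (le_trans (le_max_left _ _) (le_max_right _ _)) hm
  have m4 : N₄ ≤ m := le_trans (le_trans (le_max_right _ _) (le_max_right _ _)) hm
  have a3 := hN₃ V g r m h m3
  have a4 := hN₄ V g r m h m4
  have hZpos : 0 < ∑ R, wG θ g R := Vale.Agent.P167.N.H199.Cov.sum_wG_pos h.toCov h0 h1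
  have a1 : |(∑ R, Φ R) / (∑ R, wG θ g R) - (∑ R, wG θ g R * FX K (R ∘ r)) / (∑ R, wG θ g R)|
      ≤ D * (1 - (∑ R, wG θ g R * F1 K (R ∘ r)) / (∑ R, wG θ g R)) := by
    rw [← sub_div, ← sum_sub_distrib, abs_div, abs_of_pos hZpos]
    have : D * (1 - (∑ R, wG θ g R * F1 K (R ∘ r)) / (∑ R, wG θ g R))
        = (∑ R, D * (wG θ g R - wG θ g R * F1 K (R ∘ r))) / (∑ R, wG θ g R) := by
      rw [← mul_sum, sum_sub_distrib, mul_div_assoc, sub_div, div_self hZpos.ne']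
    rw [this]
    apply div_le_div_of_nonneg_right _ hZpos.le
    refine (abs_sum_le_sum_abs _ _).trans (sum_le_sum fun R _ => ?_)
    by_cases hR : R ∘ r ∈ G K
    · simp only [hFX, hF1]
      rw [Set.indicator_of_mem hR, Set.indicator_of_mem hR, hΦ K m1 R hR]
      simp
    · simp only [hFX, hF1]
      rw [Set.indicator_of_notMem hR, Set.indicator_of_notMem hR]
      simpa using hΦD R
  generalize (∑ R, wG θ g R * FX K (R ∘ r)) / (∑ R, wG θ g R) = x2 at a1 a3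
  generalize (∑ R, wG θ g R * F1 K (R ∘ r)) / (∑ R, wG θ g R) = x3 at a1 a4
  generalize (∑ R, Φ R) / (∑ R, wG θ g R) = x1 at a1
  have b3 : D * (1 - x3) ≤ D * (η + η) := by
    apply mul_le_mul_of_nonneg_left _ hD
    linarith [(abs_le.1 a4).1]
  have b4 : D * (η + η) = D * η + D * η := by ring
  calc |x1 - ∫ R, X R ∂P| = |(x1 - x2) + (x2 - ∫ R, FX K R ∂P) +
        (∫ R, FX K R ∂P - ∫ R, X R ∂P)| := by ring_nf
    _ ≤ |x1 - x2| + |x2 - ∫ R, FX K R ∂P| + |∫ R, FX K R ∂P - ∫ R, X R ∂P| :=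
        abs_add_three _ _ _
    _ ≤ ε := by linarith

/-- **The limit of the cut products of the finite quotients.** -/
theorem cut_limQ {θ : ℝ} (h0 : 0 ≤ θ) (h1 : Ang θ) {P : Measure Cfg}
    (hP : IsLim (2 * Real.cos θ) P) (hg : ∀ᵐ ω ∂P, Good ω) {S E : Finset Ed} (hSE : S ⊆ E)
    {a : Ed → Bool → ℝ} (ha : ∀ e ∉ E, ∀ b, a e b = 0) :
    ∀ ε > 0, ∃ m0 : ℕ, ∀ (V : Type) [AddCommGroup V] [Fintype V] [DecidableEq V] (g : Grid V)
      (r : ℤ × ℤ → V) (m : ℕ), GCov g r m → m0 ≤ m →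
      |(∑ R, cutPr g θ (S.image (rE r)) (pbr r E a) R) / (∑ R, wG θ g R) -
        ∫ ω, XcQ θ S a ω ∂P| ≤ ε := by
  have h1_lt := h1.lt
  classical
  have hθ : Real.cos θ ≠ 0 := h1.cos_pos.ne'
  intro ε hε
  obtain ⟨m0, hm0⟩ := transferQ h0 h1 hP (X := XcQ θ S a) (D := (1 / Real.cos θ) ^ (E.card + S.card))
    (fun ω => abs_XcQ_le h0 h1 ω hSE ha) (G := GK E) (GK_dep E) (XcQ_dep hθ hSE ha)
    (ae_GKP hg E) ε hε
  refine ⟨m0, fun V _ _ _ g r m h hm => hm0 V g r m h hm _ ?_ ?_⟩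
  · intro R
    have := Vale.Agent.P167.N.H199.Cov.abs_cutPrQ_le h.toCov h0 h1 R (a := pbr r E a) (E := E.image (rE r))
      (fun x hx b => pbr_off hx b) (S.image (rE r))
    refine this.trans ?_
    apply mul_le_mul_of_nonneg_right _ (Vale.Agent.P167.N.H199.Cov.wG_pos h.toCov h0 h1 R).le
    exact pow_le_pow_right₀ (by have := two_le_inv h1; linarith)
      (add_le_add card_image_le card_image_le)
  · intro K hK R hR
    exact h.cutPrQ_eq hθ hSE ha hK R hR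

end Vale.Agent.P167.N.H199
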