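import Vale.Agent.P167.N.Kit
import Vale.Agent.P167.N.H199.QGrid
import Vale.Agent.P167.N.H199.QPlane
import Vale.Agent.P167.H199.QOm

/-! generated from Vale.Agent.P167.H199.QOm (q < 1 port) -/

set_option autoImplicit false

set_option linter.unusedSimpArgs false

set_option linter.unusedSectionVars false

namespace Vale.Agent.P167.N.H199

open Vale.Agent.P167.H199

open Finset Filter Topology MeasureTheory

open Vale.Agent.P167.A (Grid plane torus red redE plane_nx plane_hd plane_sg even_val_intCast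
  par_red e1_red e2_red)

open Vale.Agent.P167.H685

open Vale.Agent.P167.H592

open Vale.Agent.P167.K8 (fc fc_zero)

open Vale.Agent.P167.FK (Good RSW)

open Vale.Agent.P167.H519 (IsLim)

open Vale.Agent.P152 (Edge Ori vw wt)

namespace GCov
open Vale.Agent.P167.H199.GCov

variable {V : Type} [AddCommGroup V] {g : Grid V} {r : ℤ × ℤ → V} {m : ℕ} (h : GCov g r m)

include h

variable [Fintype V] [DecidableEq V]

end GCov

section main

variable {θ : ℝ} (h0 : 0 ≤ θ) (h1 : Ang θ) {P : Measure Cfg}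
  (hP : IsLim (2 * Real.cos θ) P) (hg : ∀ᵐ ω ∂P, Good ω)

include h0 h1 hP hg

theorem limG_phF {S E : Finset Ed} (hSE : S ⊆ E) {a : Ed → Bool → ℝ}
    (ha : ∀ e ∉ E, ∀ b, a e b = 0) :
    LimG (2 * Real.cos (θ / 2)) S (phF E a) ((∫ ω, XcQ θ S a ω ∂P : ℝ) : ℂ) := by
  have h1_lt := h1.lt
  intro ε hε
  obtain ⟨N, hN⟩ := cut_limQ h0 h1 hP hg hSE ha ε hε
  refine ⟨N, fun V _ _ _ g r m h hm => ?_⟩
  rw [h.tv_phF, ← Complex.ofReal_sub, Complex.norm_real, Real.norm_eq_abs]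
  exact hN V g r m h hm

theorem limG_local {S : Finset Ed} {Λ : Finset Ed} (hS : S ⊆ Λ) {F : HO (ℤ × ℤ) → ℂ}
    (hF : ∀ ω ω' : HO (ℤ × ℤ), (∀ e ∈ Λ, ω e = ω' e) → F ω = F ω') :
    ∃ z, LimG (2 * Real.cos (θ / 2)) S F z := by
  have h1_lt := h1.lt
  classical
  obtain ⟨k, hk⟩ := expandF hF
  subst hk
  refine LimG.sum _ fun η _ => LimG.sum _ fun T hT => ?_
  rw [mem_powerset] at hT
  have ha : ∀ e ∉ Λ, ∀ b, aT T e b = 0 := fun e he b => by
    unfold aT
    rw [if_neg]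
    intro h
    exact he (mem_product.1 (hT h)).1
  exact ⟨_, (limG_phF h0 h1 hP hg hS ha).mul _⟩

/-- **The functional of the insertions exists**; its values on the phase insertions are expectations
for the random-cluster measure. -/
theorem exists_isOmQ : ∃ om : Ins → ℂ, IsOm (2 * Real.cos (θ / 2)) om ∧
    ∀ (S E : Finset Ed) (a : Ed → Bool → ℝ), S ⊆ E → (∀ e ∉ E, ∀ b, a e b = 0) →
      om ⟨S, phF E a⟩ = ((∫ ω, XcQ θ S a ω ∂P : ℝ) : ℂ) := by
  have h1_lt := h1.lt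
  classical
  let om : Ins → ℂ := fun A =>
    if h : ∃ z, LimG (2 * Real.cos (θ / 2)) A.S A.F z then h.choose else 0
  have k1 : ∀ A : Ins, LI Set.univ A → LimG (2 * Real.cos (θ / 2)) A.S A.F (om A) := by
    rintro A ⟨Λ, _, hS, hF⟩
    have h : ∃ z, LimG (2 * Real.cos (θ / 2)) A.S A.F z := limG_local h0 h1 hP hg hS hF
    simp only [om]
    rw [dif_pos h]
    exact h.choose_spec
  refine ⟨om, ⟨fun A hA => (k1 A hA).std, fun A hA => (k1 A hA).skew⟩, ?_⟩
  intro S E a hSE ha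
  have h2 : LimG (2 * Real.cos (θ / 2)) S (phF E a) ((∫ ω, XcQ θ S a ω ∂P : ℝ) : ℂ) :=
    limG_phF h0 h1 hP hg hSE ha
  have h : ∃ z, LimG (2 * Real.cos (θ / 2)) S (phF E a) z := ⟨_, h2⟩
  have h3 : LimG (2 * Real.cos (θ / 2)) S (phF E a) (om ⟨S, phF E a⟩) := by
    simp only [om]
    rw [dif_pos h]
    exact h.choose_spec
  exact h3.unique h2

/-- The value of any such functional on the phase insertions. -/
theorem isOm_phFQ {om : Ins → ℂ} (hom : IsOm (2 * Real.cos (θ / 2)) om) {S E : Finset Ed}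
    (hSE : S ⊆ E) {a : Ed → Bool → ℝ} (ha : ∀ e ∉ E, ∀ b, a e b = 0) :
    om ⟨S, phF E a⟩ = ((∫ ω, XcQ θ S a ω ∂P : ℝ) : ℂ) := by
  have h1_lt := h1.lt
  have hdep : ∀ ω ω' : HO (ℤ × ℤ), (∀ e ∈ E, ω e = ω' e) → phF E a ω = phF E a ω' := by
    intro ω ω' hh
    have h2 : ∑ e ∈ E, ∑ b : Bool, a e b * (if ω e b then (1 : ℝ) else -1) =
        ∑ e ∈ E, ∑ b : Bool, a e b * (if ω' e b then (1 : ℝ) else -1) :=
      sum_congr rfl fun e he => by rw [hh e he]
    unfold phF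
    rw [h2]
  have hE : ∀ e ∈ E, e ∈ EdT Set.univ := by
    rintro (v | v) _
    · intro i j _ _ _ _
      exact Set.mem_univ _
    · intro i j _ _ _ _
      exact Set.mem_univ _
  have hLI : LI Set.univ ⟨S, phF E a⟩ := ⟨E, hE, hSE, hdep⟩
  have k1 : LimS (2 * Real.cos (θ / 2)) S (phF E a) (om ⟨S, phF E a⟩) :=
    fun ε hε => hom.std _ hLI ε hε
  have k2 : LimS (2 * Real.cos (θ / 2)) S (phF E a) ((∫ ω, XcQ θ S a ω ∂P : ℝ) : ℂ) :=
    fun ε hε => (limG_phF h0 h1 hP hg hSE ha).std ε hε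
  exact k1.unique k2

omit hg in
/-- Almost surely all loops are finite. -/
theorem good_aeQ (_hθ : 0 < θ) : ∀ᵐ ω ∂P, Good ω := by
  have hPp : IsProbabilityMeasure P := hP.1
  obtain ⟨α, C, hα, hC, k1, k2⟩ := h1.kit.arm
  exact good_ae (H562.GL.armPr hP hα hC k1 k2)

end main

end Vale.Agent.P167.N.H199
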