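import Vale.Agent.P167.N.Kit
import Vale.Agent.P167.N.H662.L.LDefs2
import Vale.Agent.P167.H199.QCut

/-! generated from Vale.Agent.P167.H199.QCut (q < 1 port) -/

set_option autoImplicit false

namespace Vale.Agent.P167.N.H199

open Vale.Agent.P167.H199

open Finset Filter Topology MeasureTheory

open Vale.Agent.P167 Vale.Agent.P167.BR

open Vale.Agent.P167.H542.Q (Phs)

open Vale.Agent.P167.H562.GL (Nu)

open Vale.Agent.P167.H825 (dv dvg domP enl epos Box)

open Vale.Agent.P167.H327 (fl dv_fl fl_ne cm_abs_le exists_bd cont_dvg hcs_dvg dvg_eq_zero)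

open Vale.Agent.P167.H638.L (ChiP dvf cel Cnt CelB deepK enl_box deep_cm Deep fl_mem ne_supp
  tsupport_mul_sub cm_add dvg_add dvf_neg dv_eq_dvf dvg_split integrable_dvg hcs_mul tot_dvf)

open Vale.Agent.P167.H436 (ero mem_ero)

open Vale.Agent.P167.H662.L (XR LawV LayQ S_lay CutV S_cut)

open scoped ContDiff

/-- **L-CUT.** -/
theorem l_cut : Vale.Agent.P167.N.H662.L.S_cut := by
  classical
  intro S P L V hL hlay hV b φ₁ φ₂ θ₁ θ₂ h1 h2 g1 g2 s1 s2 u1 u2 t1 t2 v1 v2 B Q hB hQ ε hε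
  obtain ⟨m, cc, hm0, hm1, hcc, hV⟩ := hV
  set C : Set (ℝ × ℝ) := (tsupport φ₁ ∪ tsupport φ₂) ∪ (tsupport θ₁ ∪ tsupport θ₂) with hC
  have hCc : IsCompact C := (s1.isCompact.union s2.isCompact).union (u1.isCompact.union u2.isCompact)
  have hCd : C ⊆ domP S.Q := Set.union_subset (Set.union_subset t1 t2) (Set.union_subset v1 v2)
  obtain ⟨κ, hκ, hdeep⟩ := deepK hCc hCd
  obtain ⟨R, hR, hbox⟩ := enl_box S.Q
  have hF1 : Continuous fun x => dvg φ₁ φ₂ x + dvg θ₁ θ₂ x := (cont_dvg h1 h2).add (cont_dvg g1 g2)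
  have hF2 : HasCompactSupport fun x => dvg φ₁ φ₂ x + dvg θ₁ θ₂ x :=
    (hcs_dvg s1 s2).add (hcs_dvg u1 u2)
  obtain ⟨M, hM, hMb⟩ := exists_bd hF1 hF2
  set c0 : ℝ := min (κ / 4) (1 / 32) with hc0
  have hc0p : 0 < c0 := lt_min (by positivity) (by norm_num)
  have hc0κ : 4 * c0 ≤ κ := by have := min_le_left (κ / 4) (1 / 32); rw [← hc0] at this; linarith
  have hc032 : c0 ≤ 1 / 32 := min_le_right _ _
  obtain ⟨w0, hw0, hlay⟩ := hlay m cc c0 R (B + M) Q hm0 hm1 hcc hc0p hR (by positivity) hQ ε hε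
  refine ⟨w0, hw0, fun w hw hww χ hχ => ?_⟩
  obtain ⟨n0, hn0⟩ := hlay w hw hww
  obtain ⟨hχs, hχ1, hχl, hχd, hχn⟩ := hχ
  have e1 : ∀ᶠ n : ℕ in L, n0 ≤ (n : ℝ) :=
    hL (tendsto_natCast_atTop_atTop.eventually_ge_atTop _)
  have e2 : ∀ᶠ n : ℕ in L, 1 / w ≤ (n : ℝ) :=
    hL (tendsto_natCast_atTop_atTop.eventually_ge_atTop _)
  have e3 : ∀ᶠ n : ℕ in L, 2 / c0 ≤ (n : ℝ) :=
    hL (tendsto_natCast_atTop_atTop.eventually_ge_atTop _)
  filter_upwards [hL hdeep, e1, e2, e3, hL (eventually_ge_atTop 32), hV] with n hd hn1 hn2 hn4 hn3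
    hVn
  obtain ⟨th, ν, hth, hν, hVf⟩ := hVn
  have hn : 0 < n := by omega
  have hn' : (0 : ℝ) < n := by exact_mod_cast hn
  have hn32 : (32 : ℝ) ≤ n := by exact_mod_cast hn3
  have hwn : 1 ≤ w * n := by rw [div_le_iff₀ hw] at hn2; linarith
  have hcn : 2 ≤ c0 * n := by rw [div_le_iff₀ hc0p] at hn4; linarith
  obtain ⟨T, T1, T2, T3, T4, T5, T6⟩ := hχn n hwn
  have hs1 : ContDiff ℝ ∞ fun x => (1 - χ x) * φ₁ x := (contDiff_const.sub hχs).mul h1
  have hs2 : ContDiff ℝ ∞ fun x => (1 - χ x) * φ₂ x := (contDiff_const.sub hχs).mul h2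
  set c : Ed → ℝ := fun e =>
    - fl (fun x => (1 - χ x) * φ₁ x) (fun x => (1 - χ x) * φ₂ x) (1 / n) e with hc
  set g : ℤ × ℤ → ℝ := H638.cm (fun x => dvg φ₁ φ₂ x + dvg θ₁ θ₂ x) (1 / n) with hg
  have hdc : ∀ z, dvf c z = - H638.cm (dvg (fun x => (1 - χ x) * φ₁ x) fun x => (1 - χ x) * φ₂ x)
      (1 / n) z := by
    intro z
    rw [hc, dvf_neg, ← dv_fl hs1 hs2 (by positivity), dv_eq_dvf]
  have hsum : (fun x => dvg φ₁ φ₂ x + dvg θ₁ θ₂ x) =
      dvg (fun x => φ₁ x + θ₁ x) (fun x => φ₂ x + θ₂ x) := by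
    funext x
    rw [dvg_add h1 h2 g1 g2]
  have mC : ∀ {φ : ℝ × ℝ → ℝ}, tsupport φ ⊆ C → ∀ x, φ x ≠ 0 → x ∈ C := fun h x hx =>
    ne_supp h x hx
  have c1 : tsupport φ₁ ⊆ C := fun x hx => Or.inl (Or.inl hx)
  have c2 : tsupport φ₂ ⊆ C := fun x hx => Or.inl (Or.inr hx)
  have c3 : tsupport θ₁ ⊆ C := fun x hx => Or.inr (Or.inl hx)
  have c4 : tsupport θ₂ ⊆ C := fun x hx => Or.inr (Or.inr hx)
  have k1 : ∀ x, (1 - χ x) * φ₁ x ≠ 0 → x ∈ C := fun x hx => mC c1 x (right_ne_zero_of_mul hx)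
  have k2 : ∀ x, (1 - χ x) * φ₂ x ≠ 0 → x ∈ C := fun x hx => mC c2 x (right_ne_zero_of_mul hx)
  -- the radius of erosion
  set k : ℤ := ⌊2 * c0 * n⌋ with hk
  have hk1 : (k : ℝ) ≤ 2 * c0 * n := Int.floor_le _
  have hk2 : 2 * c0 * n < k + 1 := Int.lt_floor_add_one _
  have hk0 : 0 ≤ k := Int.floor_nonneg.2 (by positivity)
  have hkn : 2 * k < n := by
    have : (2 * k : ℝ) < n := by nlinarith
    exact_mod_cast this
  set K : Set (ℤ × ℤ) := {z | z ∈ sites (ero S.Q n k)} with hK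
  have hdK : ∀ z : ℤ × ℤ, (∀ v : ℤ × ℤ, (nm (v - z) : ℝ) ≤ 2 * c0 * n → v ∈ enl S.Q n) →
      z ∈ K := by
    intro z hz
    refine mem_sites.2 ⟨z, (mem_ero hk0).2 fun i j i1 i2 i3 i4 => hz _ ?_, Or.inl rfl, Or.inl rfl⟩
    have : nm ((i, j) - z) ≤ k := by
      rw [H45.nm_le]
      simp only [Prod.fst_sub, Prod.snd_sub, abs_le]
      omega
    have h3 : (nm ((i, j) - z) : ℝ) ≤ k := by exact_mod_cast this
    linarith
  -- the deep part of the strip
  set T' : Finset (ℤ × ℤ) := T.filter fun u => ∀ v : ℤ × ℤ, (nm (v - u) : ℝ) ≤ c0 * n → v ∈ S.D n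
    with hT'
  have hTT : T' ⊆ T := Finset.filter_subset _ _
  have hgD : Deep (2 * c0 * n) (enl S.Q n) g := by
    refine deep_cm hn hd (F := fun x => dvg φ₁ φ₂ x + dvg θ₁ θ₂ x) ?_ (by linarith)
    intro x hx
    by_contra hxC
    refine hx ?_
    rw [dvg_eq_zero (fun h => hxC (c1 h)) (fun h => hxC (c2 h)),
      dvg_eq_zero (fun h => hxC (c3 h)) (fun h => hxC (c4 h)), add_zero]
  have hηD : Deep (2 * c0 * n) (enl S.Q n) (dvf c) := by
    have hD : Deep (2 * c0 * n) (enl S.Q n)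
        (H638.cm (dvg (fun x => (1 - χ x) * φ₁ x) fun x => (1 - χ x) * φ₂ x) (1 / n)) := by
      refine deep_cm hn hd ?_ (by linarith)
      intro x hx
      by_contra hxC
      refine hx (dvg_eq_zero (fun h => hxC (c1 ?_)) fun h => hxC (c2 ?_))
      · exact tsupport_mul_sub _ _ h
      · exact tsupport_mul_sub _ _ h
    intro z hz
    rw [hdc] at hz
    exact hD z (neg_ne_zero.1 hz)
  have hL : LayQ c0 R (B + M) Q w n (S.D n) T' (S.b n) K g c := by
    refine ⟨?_, hbox n hn, ?_, ?_, ?_, ?_, ?_, ?_, ?_, ?_, ?_, ?_, ?_, ?_, ?_⟩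
    · exact H542.geo_ero S hn hk0 hkn (by linarith)
    · obtain ⟨z, hz, z', hz', h⟩ := H542.wide_ero S hk0 hkn
      refine ⟨z, hz, z', hz', ?_⟩
      have h3 : ((n : ℝ) - 1 - 2 * k) ≤ nm (z - z') := by exact_mod_cast h
      nlinarith
    · intro z hz
      by_contra hne
      exact hz (hdK z (hgD z hne))
    · intro z hz
      by_contra hne
      exact hz (hdK z (hηD z hne))
    · have : g = dvf (fl (fun x => φ₁ x + θ₁ x) (fun x => φ₂ x + θ₂ x) (1 / n)) := by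
        funext z
        rw [hg, hsum, ← dv_fl (h1.add g1) (h2.add g2) (by positivity), dv_eq_dvf]
      rw [this]
      refine tot_dvf fun e he => fl_mem hn hκ hd (φ₁ := fun x => φ₁ x + θ₁ x)
        (φ₂ := fun x => φ₂ x + θ₂ x) ?_ ?_ he
      · intro x hx
        by_cases h : φ₁ x = 0
        · exact mC c3 x fun h' => hx (by simp [h, h'])
        · exact mC c1 x h
      · intro x hx
        by_cases h : φ₂ x = 0
        · exact mC c4 x fun h' => hx (by simp [h, h'])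
        · exact mC c2 x h
    · intro z
      have h := cm_abs_le hMb (δ := 1 / (n : ℝ)) (by positivity) z
      refine h.trans ?_
      rw [one_div, inv_pow, ← div_eq_mul_inv]
      exact div_le_div_of_nonneg_right (by linarith) (by positivity)
    · intro e he
      exact fl_mem hn hκ hd k1 k2 (neg_ne_zero.1 he)
    · intro e he
      rw [hT', Finset.mem_filter]
      refine ⟨T1 e (neg_ne_zero.1 he), ?_⟩
      exact fl_deep hn hd k1 k2 (by nlinarith) (neg_ne_zero.1 he)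
    · intro z hz
      rw [hT', Finset.mem_filter]
      refine ⟨?_, fun v hv => hηD z hz v (by linarith)⟩
      rw [hc, dvf_neg] at hz
      exact T2 z (neg_ne_zero.1 hz)
    · intro u hu
      exact (Finset.mem_filter.1 hu).2
    · intro e
      rw [hc]
      simp only [abs_neg]
      exact (T3 e).trans (div_le_div_of_nonneg_right (by linarith) hn'.le)
    · intro z
      rw [hc, dvf_neg, abs_neg]
      exact (T4 z).trans (div_le_div_of_nonneg_right (by linarith) (by positivity))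
    · intro x r hr
      refine le_trans ?_ (T6 x r hr)
      exact_mod_cast Finset.card_le_card (Finset.filter_subset_filter _ hTT)
    · intro l hl hln
      refine le_trans ?_ (T5 l hl hln)
      have : ((cel T' l).card : ℝ) ≤ (cel T l).card := by exact_mod_cast card_cel_mono hTT l
      exact mul_le_mul_of_nonneg_right this (by positivity)
  have h := hn0 n hn1 (S.D n) T' (S.b n) K g c th ν hth hL hν
  have hkey : (fun z => g z + dvf c z) =
      H638.cm (fun x => dvg (fun y => χ y * φ₁ y) (fun y => χ y * φ₂ y) x + dvg θ₁ θ₂ x)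
        (1 / n) := by
    funext z
    have i1 := integrable_dvg h1 h2 s1 s2
    have i2 := integrable_dvg g1 g2 u1 u2
    have i3 := integrable_dvg (hχs.mul h1) (hχs.mul h2) (hcs_mul (χ := χ) s1) (hcs_mul (χ := χ) s2)
    have i4 := integrable_dvg hs1 hs2 (hcs_mul (χ := fun x => 1 - χ x) s1)
      (hcs_mul (χ := fun x => 1 - χ x) s2)
    rw [hg, hdc, cm_add i1 i2, cm_add i3 i2]
    have : dvg φ₁ φ₂ = fun x => dvg (fun y => (1 - χ y) * φ₁ y) (fun y => (1 - χ y) * φ₂ y) x +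
        dvg (fun y => χ y * φ₁ y) (fun y => χ y * φ₂ y) x := by
      funext x
      exact dvg_split hχs h1 h2 x
    rw [this, cm_add i4 i3]
    ring
  rw [hkey] at h
  rw [hVf, hVf]
  exact (abs_int_XR_le hν _ _ _ _).trans h

end Vale.Agent.P167.N.H199
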