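import Vale.Agent.P167.N.Kit
import Vale.Agent.P167.H24.Wall

/-! Port of Vale.Agent.P167.H199.QRatS: ratio mixing for sets of arbitrary shape, `q < 1`. -/

set_option autoImplicit false

namespace Vale.Agent.P167.N.H199

open Vale.Agent.P167.H199

open Finset Filter Topology MeasureTheory Vale.Agent.P167.FK Vale.Agent.P167.FKA Relation

open Vale.Agent.P145.FB (PStep PConn)

open Vale.Agent.P167.H259 (f_markov f_fkg f_comp f_comp2)

open Vale.Agent.P167.H519 (Sx Jn gen_comp)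

variable {Q c : ℝ} {Λ r : ℤ} {B A I D : Finset (ℤ × ℤ)} {η : Cfg}

/-- **Ratio mixing**: any two boundary conditions. -/
theorem QBlk.all (hQ : Kit Q) (hR : Rsc Q Λ c) (hb : QBlk Λ B A I r) {F : Cfg → ℝ}
    (hF0 : ∀ ω, 0 ≤ F ω) (hF : Loc B F) {ξ ξ' : Cfg} (hξ : Good ξ) (hξ' : Good ξ') :
    (c ^ I.card) ^ 2 * Ex Q A ξ F ≤ Ex Q A ξ' F :=
  Vale.Agent.P167.H24.qblk_all hQ.pos hQ.le hR hb hF0 hF hξ hξ'

/-- Two domains. -/
theorem QBlk.dom (hQ : Kit Q) (hR : Rsc Q Λ c) (hb : QBlk Λ B A I r) {F : Cfg → ℝ}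
    (hF0 : ∀ ω, 0 ≤ F ω) (hF : Loc B F) {D D' : Finset (ℤ × ℤ)} {η η' : Cfg} (hD : A ⊆ D)
    (hD' : A ⊆ D') (hη : Good η) (hη' : Good η') :
    (c ^ I.card) ^ 2 * Ex Q D η F ≤ Ex Q D' η' F := by
  have hQ_pos := hQ.pos
  have hQ0 : 0 < Q := by linarith
  rw [f_markov Q A D' η' F hQ0 hD' hη',
    ← Ex_const (Q := Q) (D := D') (η := η') hQ0 ((c ^ I.card) ^ 2 * Ex Q D η F)]
  refine Ex_mono hQ0 fun S' _ => ?_
  rw [f_markov Q A D η F hQ0 hD hη, ← Ex_mul_left,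
    ← Ex_const (Q := Q) (D := D) (η := η) hQ0 (Ex Q A (cf D' η' S') F)]
  exact Ex_mono hQ0 fun S _ => QBlk.all hQ hR hb hF0 hF (f_good.1 D η S hη) (f_good.1 D' η' S' hη')

/-- A function off `A` times a local function: lower bound. -/
theorem QBlk.mul_ge (hQ : Kit Q) (hR : Rsc Q Λ c) (hb : QBlk Λ B A I r) {F G : Cfg → ℝ}
    (hF0 : ∀ ω, 0 ≤ F ω) (hF : Loc B F) {D D' : Finset (ℤ × ℤ)} {η η' : Cfg} (hD : A ⊆ D)
    (hD' : A ⊆ D') (hη : Good η) (hη' : Good η') (hG0 : ∀ ω, 0 ≤ G ω) (hG : Ind A G) :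
    (c ^ I.card) ^ 2 * (Ex Q D η G * Ex Q D' η' F) ≤ Ex Q D η (fun ω => G ω * F ω) := by
  have hQ_pos := hQ.pos
  have hQ0 : 0 < Q := by linarith
  rw [markov f_markov hQ0 (A := A) hD hη hG]
  have e : (c ^ I.card) ^ 2 * (Ex Q D η G * Ex Q D' η' F) =
      Ex Q D η (fun ω => ((c ^ I.card) ^ 2 * Ex Q D' η' F) * G ω) := by
    rw [Ex_mul_left]; ring
  rw [e]
  refine Ex_mono hQ0 fun S _ => ?_
  rw [mul_comm]
  exact mul_le_mul_of_nonneg_left
    (QBlk.dom hQ hR hb hF0 hF hD' subset_rfl hη' (f_good.1 D η S hη)) (hG0 _)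

/-- A function off `A` times a local function: upper bound. -/
theorem QBlk.mul_le (hQ : Kit Q) (hR : Rsc Q Λ c) (hb : QBlk Λ B A I r) {F G : Cfg → ℝ}
    (hF0 : ∀ ω, 0 ≤ F ω) (hF : Loc B F) {D D' : Finset (ℤ × ℤ)} {η η' : Cfg} (hD : A ⊆ D)
    (hD' : A ⊆ D') (hη : Good η) (hη' : Good η') (hG0 : ∀ ω, 0 ≤ G ω) (hG : Ind A G) :
    (c ^ I.card) ^ 2 * Ex Q D η (fun ω => G ω * F ω) ≤ Ex Q D η G * Ex Q D' η' F := by
  have hQ_pos := hQ.pos
  have hQ0 : 0 < Q := by linarith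
  rw [markov f_markov hQ0 (A := A) hD hη hG, ← Ex_mul_left]
  have e : Ex Q D η G * Ex Q D' η' F = Ex Q D η (fun ω => Ex Q D' η' F * G ω) := by
    rw [Ex_mul_left]; ring
  rw [e]
  refine Ex_mono hQ0 fun S _ => ?_
  have h := QBlk.dom hQ hR hb hF0 hF subset_rfl hD' (f_good.1 D η S hη) hη'
  calc _ = G (cf D η S) * ((c ^ I.card) ^ 2 * Ex Q A (cf D η S) F) := by ring
    _ ≤ G (cf D η S) * Ex Q D' η' F := mul_le_mul_of_nonneg_left h (hG0 _)
    _ = _ := by ring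

/-- **Product form**: functions of separated sets. -/
theorem qblk_prod (hQ : Kit Q) (hR : Rsc Q Λ c) {M : ℕ} {ι : Type*} (J : Finset ι)
    {A B I : ι → Finset (ℤ × ℤ)} {r : ι → ℤ} (hb : ∀ i ∈ J, QBlk Λ (B i) (A i) (I i) (r i))
    (hM : ∀ i ∈ J, (I i).card ≤ M) (hdis : ∀ i ∈ J, ∀ j ∈ J, i ≠ j → Disjoint (B i) (A j))
    {F : ι → Cfg → ℝ} (hF0 : ∀ i ∈ J, ∀ ω, 0 ≤ F i ω) (hF : ∀ i ∈ J, Loc (B i) (F i))
    (hD : ∀ i ∈ J, A i ⊆ D) (hη : Good η) {D' : ι → Finset (ℤ × ℤ)} {η' : ι → Cfg}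
    (hD' : ∀ i ∈ J, A i ⊆ D' i) (hη' : ∀ i ∈ J, Good (η' i)) :
    (c ^ (2 * M)) ^ J.card * ∏ i ∈ J, Ex Q (D' i) (η' i) (F i) ≤
      Ex Q D η (fun ω => ∏ i ∈ J, F i ω) ∧
    (c ^ (2 * M)) ^ J.card * Ex Q D η (fun ω => ∏ i ∈ J, F i ω) ≤
      ∏ i ∈ J, Ex Q (D' i) (η' i) (F i) := by
  have hQ_pos := hQ.pos
  classical
  have hQ0 : 0 < Q := by linarith
  have hc0 := hR.2.1
  have hc1 := hR.2.2.1
  induction J using Finset.induction_on with
  | empty => simp [Ex_const hQ0]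
  | insert i J hi ih =>
    obtain ⟨ih1, ih2⟩ := ih (fun j hj => hb j (Finset.mem_insert_of_mem hj))
      (fun j hj => hM j (Finset.mem_insert_of_mem hj))
      (fun j hj k hk => hdis j (Finset.mem_insert_of_mem hj) k (Finset.mem_insert_of_mem hk))
      (fun j hj => hF0 j (Finset.mem_insert_of_mem hj))
      (fun j hj => hF j (Finset.mem_insert_of_mem hj))
      (fun j hj => hD j (Finset.mem_insert_of_mem hj))
      (fun j hj => hD' j (Finset.mem_insert_of_mem hj))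
      (fun j hj => hη' j (Finset.mem_insert_of_mem hj))
    have hii := Finset.mem_insert_self i J
    have hG0 : ∀ ω, 0 ≤ ∏ j ∈ J, F j ω := fun ω =>
      Finset.prod_nonneg fun j hj => hF0 j (Finset.mem_insert_of_mem hj) ω
    have hG : Ind (A i) (fun ω => ∏ j ∈ J, F j ω) := ind_prod J fun j hj =>
      (hF j (Finset.mem_insert_of_mem hj)).ind (hdis j (Finset.mem_insert_of_mem hj) i hii
        (fun h => hi (h ▸ hj)))
    have e : ∀ ω, ∏ j ∈ insert i J, F j ω = (∏ j ∈ J, F j ω) * F i ω := fun ω => by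
      rw [Finset.prod_insert hi, mul_comm]
    have k1 := QBlk.mul_ge hQ hR (hb i hii) (hF0 i hii) (hF i hii) (hD i hii) (hD' i hii) hη
      (hη' i hii) hG0 hG
    have k2 := QBlk.mul_le hQ hR (hb i hii) (hF0 i hii) (hF i hii) (hD i hii) (hD' i hii) hη
      (hη' i hii) hG0 hG
    have hcM : c ^ (2 * M) ≤ (c ^ (I i).card) ^ 2 := by
      rw [← pow_mul, mul_comm]
      exact pow_le_pow_of_le_one hc0.le hc1 (by have := hM i hii; omega)
    have hE1 : 0 ≤ Ex Q (D' i) (η' i) (F i) := Ex_nonneg hQ0 fun S _ => hF0 i hii _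
    have hE2 : 0 ≤ Ex Q D η (fun ω => ∏ j ∈ J, F j ω) := Ex_nonneg hQ0 fun S _ => hG0 _
    have hE3 : 0 ≤ Ex Q D η (fun ω => (∏ j ∈ J, F j ω) * F i ω) :=
      Ex_nonneg hQ0 fun S _ => mul_nonneg (hG0 _) (hF0 i hii _)
    have ha : 0 < c ^ (2 * M) := pow_pos hc0 _
    have hcard : (insert i J).card = J.card + 1 := Finset.card_insert_of_notMem hi
    simp only [e]
    rw [Finset.prod_insert hi, hcard, pow_succ]
    set a := c ^ (2 * M)
    set p := ∏ j ∈ J, Ex Q (D' j) (η' j) (F j)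
    have hp : 0 ≤ p := Finset.prod_nonneg fun j hj =>
      Ex_nonneg hQ0 fun S _ => hF0 j (Finset.mem_insert_of_mem hj) _
    constructor
    · calc a ^ J.card * a * (Ex Q (D' i) (η' i) (F i) * p)
          = a * ((a ^ J.card * p) * Ex Q (D' i) (η' i) (F i)) := by ring
        _ ≤ a * (Ex Q D η (fun ω => ∏ j ∈ J, F j ω) * Ex Q (D' i) (η' i) (F i)) :=
            mul_le_mul_of_nonneg_left (mul_le_mul_of_nonneg_right ih1 hE1) ha.le
        _ ≤ (c ^ (I i).card) ^ 2 *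
            (Ex Q D η (fun ω => ∏ j ∈ J, F j ω) * Ex Q (D' i) (η' i) (F i)) :=
            mul_le_mul_of_nonneg_right hcM (mul_nonneg hE2 hE1)
        _ ≤ _ := k1
    · calc a ^ J.card * a * Ex Q D η (fun ω => (∏ j ∈ J, F j ω) * F i ω)
          ≤ a ^ J.card * ((c ^ (I i).card) ^ 2 * Ex Q D η (fun ω => (∏ j ∈ J, F j ω) * F i ω)) := by
            rw [mul_assoc]
            exact mul_le_mul_of_nonneg_left (mul_le_mul_of_nonneg_right hcM hE3)
              (pow_nonneg ha.le _)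
        _ ≤ a ^ J.card * (Ex Q D η (fun ω => ∏ j ∈ J, F j ω) * Ex Q (D' i) (η' i) (F i)) :=
            mul_le_mul_of_nonneg_left k2 (pow_nonneg ha.le _)
        _ = Ex Q (D' i) (η' i) (F i) * (a ^ J.card * Ex Q D η (fun ω => ∏ j ∈ J, F j ω)) := by
            ring
        _ ≤ _ := mul_le_mul_of_nonneg_left ih2 hE1

end Vale.Agent.P167.N.H199
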