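import Vale.Agent.P167.N.Kit
import Vale.Agent.P167.N.H199.QRatS
import Vale.Agent.P167.H199.QRatW

/-! generated from Vale.Agent.P167.H199.QRatW (q < 1 port) -/

set_option autoImplicit false

namespace Vale.Agent.P167.N.H199

open Vale.Agent.P167.H199

open Finset Filter Topology MeasureTheory Vale.Agent.P167.FK Vale.Agent.P167.FKA Relation

open Vale.Agent.P145.FB (PStep PConn)

open Vale.Agent.P167.H259 (f_markov f_fkg f_comp f_comp2)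

variable {Q c : ℝ} {Λ r s κ : ℤ} {W W' D : Finset (ℤ × ℤ)} {η : Cfg}

/-- **Quasi-independence of macroscopic walls**, finite volume. -/
theorem walls_prod (hQ : Kit Q) (hR : Rsc Q Λ c) (hκ : 0 ≤ κ) (hs : Λ ≤ s) {ι : Type*}
    (J : Finset ι) {W : ι → Finset (ℤ × ℤ)} {x : ι → ℤ × ℤ}
    (hW : ∀ i ∈ J, ∀ w ∈ W i, nm (w - x i) ≤ κ * s)
    (hsep : ∀ i ∈ J, ∀ j ∈ J, i ≠ j → ∀ v ∈ W i, ∀ w ∈ W j, 6 * s < nm (v - w))
    {F : ι → Cfg → ℝ} (hF0 : ∀ i ∈ J, ∀ ω, 0 ≤ F i ω)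
    (hF : ∀ i ∈ J, Loc (nbh (W i) s) (F i)) (hD : ∀ i ∈ J, nbh (W i) (5 * s) ⊆ D) (hη : Good η)
    {D' : ι → Finset (ℤ × ℤ)} {η' : ι → Cfg} (hD' : ∀ i ∈ J, nbh (W i) (5 * s) ⊆ D' i)
    (hη' : ∀ i ∈ J, Good (η' i)) :
    ∏ i ∈ J, Ex Q (D' i) (η' i) (F i) ≤
      Cw Λ κ c J.card * Ex Q D η (fun ω => ∏ i ∈ J, F i ω) ∧
    Ex Q D η (fun ω => ∏ i ∈ J, F i ω) ≤
      Cw Λ κ c J.card * ∏ i ∈ J, Ex Q (D' i) (η' i) (F i) := by
  have hQ_pos := hQ.pos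
  classical
  have hc0 := hR.2.1
  have hex : ∀ i : ι, ∃ I : Finset (ℤ × ℤ), i ∈ J → I.card ≤ Mw Λ κ ∧
      QBlk Λ (nbh (W i) s) (nbh (W i) (5 * s)) I (s / Λ) := by
    intro i
    by_cases hi : i ∈ J
    · obtain ⟨I, h1, h2⟩ := wall_qblk hR.1 hκ hs (hW i hi)
      exact ⟨I, fun _ => ⟨h1, h2⟩⟩
    · exact ⟨∅, fun h => absurd h hi⟩
  choose I hI using hex
  obtain ⟨h1, h2⟩ := qblk_prod (D := D) (η := η) hQ hR J (A := fun i => nbh (W i) (5 * s))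
    (B := fun i => nbh (W i) s) (I := I) (r := fun _ => s / Λ) (M := Mw Λ κ)
    (fun i hi => (hI i hi).2) (fun i hi => (hI i hi).1)
    (fun i hi j hj hij => disj_nbh fun v hv w hw => by
      have := hsep i hi j hj hij v hv w hw; linarith) hF0 hF hD hη hD' hη'
  have ha : 0 < (c ^ (2 * Mw Λ κ)) ^ J.card := by positivity
  unfold Cw
  constructor
  · rw [inv_mul_eq_div, le_div_iff₀ ha, mul_comm]
    exact h1
  · rw [inv_mul_eq_div, le_div_iff₀ ha, mul_comm]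
    exact h2

/-- **Quasi-independence of macroscopic walls**, infinite volume. -/
theorem walls_lim {P : Measure Cfg} (hP : H519.IsLim Q P) (hQ : Kit Q) (hR : Rsc Q Λ c)
    (hκ : 0 ≤ κ) (hs : Λ ≤ s) {ι : Type*} (J : Finset ι) {W : ι → Finset (ℤ × ℤ)}
    {x : ι → ℤ × ℤ} (hW : ∀ i ∈ J, ∀ w ∈ W i, nm (w - x i) ≤ κ * s)
    (hsep : ∀ i ∈ J, ∀ j ∈ J, i ≠ j → ∀ v ∈ W i, ∀ w ∈ W j, 6 * s < nm (v - w))
    {F : ι → Cfg → ℝ} (hF0 : ∀ i ∈ J, ∀ ω, 0 ≤ F i ω)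
    (hF : ∀ i ∈ J, Loc (nbh (W i) s) (F i)) :
    ∏ i ∈ J, ∫ ω, F i ω ∂P ≤ Cw Λ κ c J.card * ∫ ω, ∏ i ∈ J, F i ω ∂P ∧
    ∫ ω, ∏ i ∈ J, F i ω ∂P ≤ Cw Λ κ c J.card * ∏ i ∈ J, ∫ ω, F i ω ∂P := by
  have hQ_pos := hQ.pos
  classical
  have t1 : ∀ i ∈ J, Tendsto (fun n : ℕ => Ex Q (Bq 0 n) eta0 (F i)) atTop
      (𝓝 (∫ ω, F i ω ∂P)) := fun i hi => H519.lim_tendsto hP (hF i hi)
  have t2 : Tendsto (fun n : ℕ => Ex Q (Bq 0 n) eta0 (fun ω => ∏ i ∈ J, F i ω)) atTop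
      (𝓝 (∫ ω, ∏ i ∈ J, F i ω ∂P)) := H519.lim_tendsto hP (loc_prod J hF)
  have t3 := tendsto_finsetProd J t1
  obtain ⟨R, -, hR'⟩ := H519.exists_Bq (J.biUnion fun i => nbh (W i) (5 * s))
  have hev : ∀ᶠ n : ℕ in atTop, ∀ i ∈ J, nbh (W i) (5 * s) ⊆ Bq 0 n := by
    filter_upwards [eventually_ge_atTop R.toNat] with n hn
    intro i hi v hv
    exact H519.Bq_mono (by omega) (hR' (Finset.mem_biUnion.2 ⟨i, hi, hv⟩))
  constructor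
  · refine le_of_tendsto_of_tendsto t3 (t2.const_mul _) ?_
    filter_upwards [hev] with n hn
    exact (walls_prod hQ hR hκ hs J hW hsep hF0 hF hn f_good.2.1 hn fun _ _ => f_good.2.1).1
  · refine le_of_tendsto_of_tendsto t2 (t3.const_mul _) ?_
    filter_upwards [hev] with n hn
    exact (walls_prod hQ hR hκ hs J hW hsep hF0 hF hn f_good.2.1 hn fun _ _ => f_good.2.1).2

end Vale.Agent.P167.N.H199
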